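import Vale.Agent.P318B.AllU

namespace Vale.Agent.Results.P318.AAAApxU

open Vale.Agent.P318B Vale.Agent.P325

theorem result :
    ∃ C : ℝ, 1 < C ∧ GapHardS C ∧ GapHard C ∧
      ((∃ A, PolyTime A ∧ ApproxS C A) → NP ⊆ P) ∧
      ((∃ A, PolyTime A ∧ Approx C A) → NP ⊆ P) :=
  main_unw

end Vale.Agent.Results.P318.AAAApxU
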